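import Vale.Agent.P070.Main
import Vale.Agent.P070.Naimark
import Vale.Agent.P070.Base
import Vale.Agent.P070.Maj
import Vale.Agent.P070.Excision
import Vale.Agent.P070.Sep
import Vale.Agent.P070.Step

/-! P070: a counterexample to Naimark's problem, with choice as the only set-theoretic input. -/

namespace Vale.Agent.Results.P070.NaimarkCounterexample

open Vale.Agent.P070

theorem result.{u, v, w} :
    ∃ (B : Type) (_ : CStarAlgebra B),
      Nontrivial B ∧ HasIrrep B ∧ IrrepsEquivalent.{u, v} B ∧ ¬ IsoCompacts.{w} B := by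
  obtain ⟨B, hB, h1, h2, h3, h4⟩ := final.{u, v, w} base (excision (step maj)) sep sep
  refine ⟨B, hB, h1, h2, h3, ?_⟩
  rintro ⟨H, i1, i2, i3, e, he⟩
  exact h4 H ⟨e, he⟩

end Vale.Agent.Results.P070.NaimarkCounterexample
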